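import Vale.Agent.Lib.Helper7.P308.Bridge

/-!
# P308: near-perfect and perfect matchings of graphs of bounded independence number

Let `G` be a finite simple graph on `n` vertices in which every independent set has at most `k`
vertices, and suppose that `G` has a perfect matching.  Then the number of near-perfect matchings
of `G` (matchings which leave exactly two vertices uncovered) is at most `n ^ (6 k + 2)` times
the number of perfect matchings.

Proof.  Let `M` be near-perfect with uncovered vertices `u`, `v`.  A perfect matching gives an
`M`-augmenting path `u = x 0`, `y 1, x 1`, ..., `y L, x L`, `y (L + 1) = v`, where the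
pairs `y i, x i` are edges of `M` and `x i` is adjacent to `y (i + 1)`.  Take `L` least.  If `x a` is
adjacent to `x b` and `y b` to `y c` with `a < b < c` and `a + 3 ≤ c`, then going from `x a` to
`x b`, through the matching edge to `y b` and on to `y c` gives a shorter augmenting path.  Hence
for every `b` either `y b` has no neighbour `y c` with `c > b`, or `x b` has no neighbour `x a`
with `a + 2 ≤ b`.  The `y b` of the first kind, and the `x b` of the second kind with `b` even,
respectively odd, form three independent sets, so `L ≤ 3 k`.  Flipping `M` along the path gives a
perfect matching, and `M` is recovered from it, the vertices `u`, `v` and the at most `3 k` pairs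
`x i, y i`.
-/

namespace Vale.Agent.Results.P308.BoundedIndependence

/-- If every independent set of the finite simple graph `G` has at most `k` vertices and `G` has a
perfect matching, then the number of matchings of `G` which leave exactly two vertices uncovered
is at most `n ^ (6 k + 2)` times the number of perfect matchings of `G`, where `n` is the number
of vertices. -/
theorem result {V : Type*} [Fintype V] (G : SimpleGraph V) (k : ℕ)
    (hα : ∀ s : Finset V, G.IsIndepSet (s : Set V) → s.card ≤ k)
    (hpm : ∃ M : G.Subgraph, M.IsPerfectMatching) :
    Set.ncard {M : G.Subgraph | M.IsMatching ∧ (M.vertsᶜ).ncard = 2}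
      ≤ Fintype.card V ^ (6 * k + 2) * Set.ncard {M : G.Subgraph | M.IsPerfectMatching} :=
  Vale.Agent.Lib.Helper7.P308.count_subgraphs G k
    (fun s hs => hα s (fun p hp q hq hpq => hs p hp q hq hpq)) hpm

end Vale.Agent.Results.P308.BoundedIndependence
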