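import Mathlib

/-!
# P308: near-perfect and perfect matchings of graphs without three independent vertices

Let `G` be a finite simple graph in which no three vertices are pairwise non-adjacent (the
complement of `G` is triangle-free) and which has a perfect matching.  Then the number of
near-perfect matchings of `G` is at most `n ^ 4` times the number of perfect matchings, where
`n` is the number of vertices.

A matching is recorded by its partner map: a perfect matching is a map `σ` with `σ (σ x) = x`
and `x` adjacent to `σ x` for every vertex `x`; a near-perfect matching is a map `τ` with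
`τ (τ x) = x` which fixes exactly two vertices (the uncovered ones) and sends every other vertex
to a neighbour.

Proof.  Let `τ` be near-perfect with uncovered vertices `u`, `v`.  If `u` and `v` are adjacent,
add the edge `uv`.  Otherwise every other vertex is adjacent to `u` or to `v`.  If some matching
edge `xy` has `x` adjacent to `u` and `y` adjacent to `v`, replace it by `ux` and `vy`.  Otherwise
the two ends of every matching edge are both adjacent to `u` and not to `v`, or both adjacent to
`v` and not to `u`.  The set `A` consisting of `u` and its neighbours has odd size, so a perfect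
matching has an edge `ab` with `a` in `A` and `b` outside; then `a` is a neighbour of `u` and `b`
a neighbour of `v`, and with the partners `a'`, `b'` of `a`, `b` the edges `ua'`, `ab`, `b'v`
replace `aa'`, `bb'`.  In each case `τ` is recovered from the perfect matching obtained and the
four vertices `u`, `v`, `a`, `b`.
-/

namespace Vale.Agent.Results.P308.IndependenceTwo

open Finset

variable {V : Type*}

/-- `σ` is the partner map of a perfect matching of `G`: every vertex `x` is adjacent to its
partner `σ x`, and the partner of `σ x` is `x`. -/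
def IsPerfect (G : SimpleGraph V) (σ : V → V) : Prop :=
  ∀ x, G.Adj x (σ x) ∧ σ (σ x) = x

/-- `τ` is the partner map of a near-perfect matching of `G`: `τ (τ x) = x` for every vertex `x`,
every vertex that is not fixed by `τ` is adjacent to its partner `τ x`, and exactly two vertices
are fixed by `τ` (these are the two uncovered vertices). -/
def IsNearPerfect (G : SimpleGraph V) (τ : V → V) : Prop :=
  (∀ x, τ (τ x) = x) ∧ (∀ x, τ x ≠ x → G.Adj x (τ x)) ∧
    ∃ u v, u ≠ v ∧ ∀ x, τ x = x ↔ (x = u ∨ x = v)

/-- The map which recovers a near-perfect matching from a perfect one and four vertices. -/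
def dec [DecidableEq V] (σ : V → V) (u v a b : V) : V → V := fun x =>
  if x = u then u else if x = v then v else if x = σ u then a else if x = a then σ u
  else if x = σ v then b else if x = b then σ v else σ x

theorem even_card_of_invol [DecidableEq V] (S : Finset V) (f : V → V) (hS : ∀ x ∈ S, f x ∈ S)
    (hf : ∀ x ∈ S, f (f x) = x) (hne : ∀ x ∈ S, f x ≠ x) : Even S.card := by
  have h := Finset.sum_involution (s := S) (f := fun _ => (1 : ZMod 2)) (fun a _ => f a)
    (fun a ha => by decide) (fun a ha _ => hne a ha) (fun a ha => hS a ha) (fun a ha => hf a ha)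
  rw [Finset.sum_const, nsmul_eq_mul, mul_one] at h
  exact ZMod.natCast_eq_zero_iff_even.mp h

theorem exists_perfect [Fintype V] [DecidableEq V] (G : SimpleGraph V)
    (hα : ∀ a b c : V, a ≠ b → a ≠ c → b ≠ c → G.Adj a b ∨ G.Adj a c ∨ G.Adj b c)
    (σ0 : V → V) (h0 : IsPerfect G σ0) (τ : V → V) (hτ : IsNearPerfect G τ) :
    ∃ σ, IsPerfect G σ ∧ ∃ u v a b, τ = dec σ u v a b := by
  classical
  obtain ⟨hinv, hadj, u, v, huv, hfix⟩ := hτ
  have hτu : τ u = u := (hfix u).2 (Or.inl rfl)
  have hτv : τ v = v := (hfix v).2 (Or.inr rfl)
  have hnf : ∀ x, x ≠ u → x ≠ v → τ x ≠ x := fun x h1 h2 h => by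
    rcases (hfix x).1 h with h | h
    · exact h1 h
    · exact h2 h
  have hnf' : ∀ x, τ x ≠ x → x ≠ u ∧ x ≠ v :=
    fun x h => ⟨fun e => h (e ▸ hτu), fun e => h (e ▸ hτv)⟩
  have hτnf : ∀ x, τ x ≠ x → τ (τ x) ≠ τ x := fun x h => by
    rw [hinv x]
    exact fun e => h e.symm
  have hτinj : ∀ x y, τ x = τ y → x = y := fun x y h => by
    rw [← hinv x, ← hinv y, h]
  by_cases huv_adj : G.Adj u v
  · -- the uncovered vertices are adjacent
    refine ⟨fun x => if x = u then v else if x = v then u else τ x, ?_, u, v, u, v, ?_⟩
    · intro x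
      by_cases hxu : x = u
      · subst hxu
        simp [huv.symm, huv_adj]
      · by_cases hxv : x = v
        · subst hxv
          simp [hxu, huv_adj.symm]
        · have h1 := hnf x hxu hxv
          have h2 : τ x ≠ u := fun e => hxu (hτinj x u (by rw [e, hτu]))
          have h3 : τ x ≠ v := fun e => hxv (hτinj x v (by rw [e, hτv]))
          simp [hxu, hxv, h2, h3, hadj x h1, hinv x]
    · funext x
      unfold dec
      by_cases hxu : x = u
      · subst hxu
        simp [hτu]
      · by_cases hxv : x = v
        · subst hxv
          simp [hxu, hτv]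
        · simp [hxu, hxv, huv.symm]
  · by_cases h2a : ∃ x, τ x ≠ x ∧ G.Adj u x ∧ G.Adj v (τ x)
    · -- an augmenting matching edge
      obtain ⟨x, hx, hux, hvy⟩ := h2a
      obtain ⟨hxu, hxv⟩ := hnf' x hx
      obtain ⟨hyu, hyv⟩ := hnf' (τ x) (hτnf x hx)
      refine ⟨fun z => if z = u then x else if z = x then u else if z = v then τ x
        else if z = τ x then v else τ z, ?_, u, v, τ x, x, ?_⟩
      · intro z
        by_cases hzu : z = u
        · subst hzu
          simp [hxu, hux]
        · by_cases hzx : z = x
          · subst hzx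
            simp [hzu, hux.symm]
          · by_cases hzv : z = v
            · subst hzv
              simp [hzu, hzx, hyu, hx, hvy]
            · by_cases hzy : z = τ x
              · subst hzy
                simp [hyu, hx, hyv, huv.symm, hxv.symm, hvy.symm]
              · have h1 := hnf z hzu hzv
                have h2 : τ z ≠ u := fun e => hzu (hτinj z u (by rw [e, hτu]))
                have h3 : τ z ≠ v := fun e => hzv (hτinj z v (by rw [e, hτv]))
                have h4 : τ z ≠ x := fun e => hzy (by rw [← e, hinv z])
                have h5 : τ z ≠ τ x := fun e => hzx (hτinj z x e)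
                simp [hzu, hzx, hzv, hzy, h2, h3, h4, h5, hadj z h1, hinv z]
      · funext z
        unfold dec
        by_cases hzu : z = u
        · subst hzu
          simp [hτu]
        · by_cases hzv : z = v
          · subst hzv
            simp [hzu, hτv]
          · by_cases hzx : z = x
            · subst hzx
              simp [hzu, hzv]
            · by_cases hzy : z = τ x
              · subst hzy
                simp [hyu, hyv, hx, hinv x]
              · simp [hzu, hzv, hzx, hzy, huv.symm, hxv.symm]
    · -- no augmenting matching edge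
      have h2b : ∀ x, τ x ≠ x → G.Adj u x → ¬ G.Adj v (τ x) :=
        fun x h1 h2 h3 => h2a ⟨x, h1, h2, h3⟩
      have hdom : ∀ x, x ≠ u → x ≠ v → G.Adj u x ∨ G.Adj v x := fun x h1 h2 => by
        rcases hα u v x huv (Ne.symm h1) (Ne.symm h2) with h | h | h
        · exact absurd h huv_adj
        · exact Or.inl h
        · exact Or.inr h
      have T1 : ∀ x, G.Adj u x → G.Adj u (τ x) ∧ ¬ G.Adj v x ∧ ¬ G.Adj v (τ x) := by
        intro x hx
        have hxu : x ≠ u := (G.ne_of_adj hx).symm
        have hxv : x ≠ v := fun e => huv_adj (e ▸ hx)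
        have hx' := hnf x hxu hxv
        have h1 : ¬ G.Adj v (τ x) := h2b x hx' hx
        have hτx := hnf' (τ x) (hτnf x hx')
        have h2 : G.Adj u (τ x) := (hdom (τ x) hτx.1 hτx.2).resolve_right h1
        have h3 : ¬ G.Adj v x := by
          have := h2b (τ x) (hτnf x hx') h2
          rwa [hinv x] at this
        exact ⟨h2, h3, h1⟩
      -- the neighbours of `u` are permuted by `τ` without fixed points
      have hNeven : Even (univ.filter (fun x => G.Adj u x)).card := by
        apply even_card_of_invol _ τ
        · intro x hx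
          rw [mem_filter] at hx ⊢
          exact ⟨mem_univ _, (T1 x hx.2).1⟩
        · intro x _
          exact hinv x
        · intro x hx
          rw [mem_filter] at hx
          exact hnf x (G.ne_of_adj hx.2).symm (fun e => huv_adj (e ▸ hx.2))
      have hA : (insert u (univ.filter (fun x => G.Adj u x))).card
          = (univ.filter (fun x => G.Adj u x)).card + 1 :=
        card_insert_of_notMem (by simp)
      obtain ⟨a, haA, hbA⟩ : ∃ a ∈ insert u (univ.filter (fun x => G.Adj u x)),
          σ0 a ∉ insert u (univ.filter (fun x => G.Adj u x)) := by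
        by_contra hcon
        push Not at hcon
        have hAeven := even_card_of_invol _ σ0 hcon (fun x _ => (h0 x).2)
          (fun x _ => (G.ne_of_adj (h0 x).1).symm)
        rw [hA] at hAeven
        exact (Nat.even_add_one.mp hAeven) hNeven
      have hab : G.Adj a (σ0 a) := (h0 a).1
      rw [mem_insert, mem_filter] at haA
      rw [mem_insert, mem_filter, not_or] at hbA
      have hbu : σ0 a ≠ u := hbA.1
      have hub : ¬ G.Adj u (σ0 a) := fun h => hbA.2 ⟨mem_univ _, h⟩
      have hua : G.Adj u a := by
        rcases haA with h | h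
        · exact absurd (h ▸ hab) hub
        · exact h.2
      obtain ⟨hua', hva, hva'⟩ := T1 a hua
      have hau : a ≠ u := (G.ne_of_adj hua).symm
      have hav : a ≠ v := fun e => huv_adj (e ▸ hua)
      have hbv : σ0 a ≠ v := fun e => hva (e ▸ hab.symm)
      have hvb : G.Adj v (σ0 a) := (hdom _ hbu hbv).resolve_left hub
      obtain ⟨b, hb⟩ : ∃ b, b = σ0 a := ⟨_, rfl⟩
      rw [← hb] at hab hbu hub hbv hvb
      have ha' := hnf a hau hav
      have hb' := hnf b hbu hbv
      obtain ⟨ha'u, ha'v⟩ := hnf' (τ a) (hτnf a ha')
      obtain ⟨hb'u, hb'v⟩ := hnf' (τ b) (hτnf b hb')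
      have hub' : ¬ G.Adj u (τ b) := fun h => by
        have := (T1 (τ b) h).2.2
        rw [hinv b] at this
        exact this hvb
      have hvb' : G.Adj v (τ b) := (hdom _ hb'u hb'v).resolve_left hub'
      have hab_ne : a ≠ b := fun e => hub (e ▸ hua)
      have hab' : a ≠ τ b := fun e => hub' (e ▸ hua)
      have ha'b : τ a ≠ b := fun e => hub (e ▸ hua')
      have ha'b' : τ a ≠ τ b := fun e => hub' (e ▸ hua')
      refine ⟨fun z => if z = u then τ a else if z = τ a then u else if z = v then τ b
        else if z = τ b then v else if z = a then b else if z = b then a else τ z, ?_,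
        u, v, a, b, ?_⟩
      · intro z
        by_cases hzu : z = u
        · subst hzu
          simp [ha'u, hua']
        · by_cases hza' : z = τ a
          · subst hza'
            simp [ha'u, hua'.symm]
          · by_cases hzv : z = v
            · subst hzv
              simp [hzu, hza', hb'u, ha'b'.symm, hb'v, hvb']
            · by_cases hzb' : z = τ b
              · subst hzb'
                simp [hb'u, ha'b'.symm, hb'v, huv.symm, ha'v.symm, hvb'.symm]
              · by_cases hza : z = a
                · subst hza
                  simp [hzu, hza', hzv, hzb', hbu, ha'b.symm, hbv, hb'.symm, hab_ne.symm, hab]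
                · by_cases hzb : z = b
                  · subst hzb
                    simp [hzu, hza', hzv, hzb', hza, hau, ha'.symm, hav, hab', hab.symm]
                  · have h1 := hnf z hzu hzv
                    have h2 : τ z ≠ u := fun e => hzu (hτinj z u (by rw [e, hτu]))
                    have h3 : τ z ≠ v := fun e => hzv (hτinj z v (by rw [e, hτv]))
                    have h4 : τ z ≠ τ a := fun e => hza (hτinj z a e)
                    have h5 : τ z ≠ τ b := fun e => hzb (hτinj z b e)
                    have h6 : τ z ≠ a := fun e => hza' (by rw [← e, hinv z])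
                    have h7 : τ z ≠ b := fun e => hzb' (by rw [← e, hinv z])
                    simp [hzu, hza', hzv, hzb', hza, hzb, h2, h3, h4, h5, h6, h7, hadj z h1,
                      hinv z]
      · funext z
        unfold dec
        by_cases hzu : z = u
        · subst hzu
          simp [hτu]
        · by_cases hzv : z = v
          · subst hzv
            simp [hzu, hτv]
          · by_cases hza' : z = τ a
            · subst hza'
              simp [hzu, hzv, hinv a]
            · by_cases hza : z = a
              · subst hza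
                simp [hzu, hzv, hza']
              · by_cases hzb' : z = τ b
                · subst hzb'
                  simp [hzu, hzv, hza', hza, huv.symm, ha'v.symm, hinv b]
                · by_cases hzb : z = b
                  · subst hzb
                    simp [hzu, hzv, hza', hza, hzb', huv.symm, ha'v.symm]
                  · simp [hzu, hzv, hza', hza, hzb', hzb, huv.symm, ha'v.symm]

/-- The counting inequality for partner maps. -/
theorem count_maps {V : Type*} [Fintype V] (G : SimpleGraph V)
    (hα : ∀ a b c : V, a ≠ b → a ≠ c → b ≠ c → G.Adj a b ∨ G.Adj a c ∨ G.Adj b c)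
    (hpm : ∃ σ : V → V, IsPerfect G σ) :
    Set.ncard {τ : V → V | IsNearPerfect G τ}
      ≤ Fintype.card V ^ 4 * Set.ncard {σ : V → V | IsPerfect G σ} := by
  classical
  obtain ⟨σ0, h0⟩ := hpm
  have hsub : {τ : V → V | IsNearPerfect G τ} ⊆
      (fun p : (V → V) × V × V × V × V => dec p.1 p.2.1 p.2.2.1 p.2.2.2.1 p.2.2.2.2) ''
        ({σ : V → V | IsPerfect G σ} ×ˢ (Set.univ : Set (V × V × V × V))) := by
    intro τ hτ
    obtain ⟨σ, hσ, u, v, a, b, rfl⟩ := exists_perfect G hα σ0 h0 τ hτ
    exact ⟨(σ, u, v, a, b), ⟨hσ, Set.mem_univ _⟩, rfl⟩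
  calc Set.ncard {τ : V → V | IsNearPerfect G τ}
      ≤ Set.ncard ((fun p : (V → V) × V × V × V × V =>
          dec p.1 p.2.1 p.2.2.1 p.2.2.2.1 p.2.2.2.2) ''
        ({σ : V → V | IsPerfect G σ} ×ˢ (Set.univ : Set (V × V × V × V)))) :=
        Set.ncard_le_ncard hsub (Set.toFinite _)
    _ ≤ Set.ncard ({σ : V → V | IsPerfect G σ} ×ˢ (Set.univ : Set (V × V × V × V))) :=
        Set.ncard_image_le (Set.toFinite _)
    _ = Set.ncard {σ : V → V | IsPerfect G σ} * Set.ncard (Set.univ : Set (V × V × V × V)) :=
        Set.ncard_prod
    _ = Fintype.card V ^ 4 * Set.ncard {σ : V → V | IsPerfect G σ} := by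
        rw [Set.ncard_univ, Nat.card_eq_fintype_card]
        simp only [Fintype.card_prod]
        ring

/-! ### Partner maps and matchings as subgraphs -/

/-- The partner map of a subgraph: a vertex with a neighbour in `M` goes to such a neighbour, every
other vertex to itself. -/
noncomputable def ofSub {G : SimpleGraph V} (M : G.Subgraph) : V → V := by
  classical
  exact fun x => if h : ∃ w, M.Adj x w then h.choose else x

theorem ofSub_adj {G : SimpleGraph V} {M : G.Subgraph} (hM : M.IsMatching) {x y : V}
    (h : M.Adj x y) : ofSub M x = y := by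
  classical
  have hex : ∃ w, M.Adj x w := ⟨y, h⟩
  have h1 : ofSub M x = hex.choose := by
    unfold ofSub
    rw [dif_pos hex]
  rw [h1]
  exact hM.eq_of_adj_left hex.choose_spec h

theorem ofSub_not {G : SimpleGraph V} {M : G.Subgraph} {x : V}
    (h : ¬ ∃ w, M.Adj x w) : ofSub M x = x := by
  classical
  unfold ofSub
  rw [dif_neg h]

theorem ofSub_invol {G : SimpleGraph V} {M : G.Subgraph} (hM : M.IsMatching) (x : V) :
    ofSub M (ofSub M x) = x := by
  by_cases h : ∃ w, M.Adj x w
  · obtain ⟨w, hw⟩ := h
    rw [ofSub_adj hM hw, ofSub_adj hM hw.symm]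
  · rw [ofSub_not h, ofSub_not h]

theorem ofSub_ne_iff {G : SimpleGraph V} {M : G.Subgraph} (hM : M.IsMatching) (x : V) :
    ofSub M x ≠ x ↔ x ∈ M.verts := by
  constructor
  · intro h
    by_contra hx
    apply h
    apply ofSub_not
    rintro ⟨w, hw⟩
    exact hx (M.edge_vert hw)
  · intro hx
    obtain ⟨w, hw, -⟩ := hM hx
    rw [ofSub_adj hM hw]
    exact (G.ne_of_adj (M.adj_sub hw)).symm

theorem adj_iff_ofSub {G : SimpleGraph V} {M : G.Subgraph} (hM : M.IsMatching) (x y : V) :
    M.Adj x y ↔ ofSub M x = y ∧ x ∈ M.verts := by
  constructor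
  · intro h
    exact ⟨ofSub_adj hM h, M.edge_vert h⟩
  · rintro ⟨h, hx⟩
    obtain ⟨w, hw, -⟩ := hM hx
    rw [ofSub_adj hM hw] at h
    rw [← h]
    exact hw

theorem ofSub_injOn {G : SimpleGraph V} :
    Set.InjOn (ofSub (G := G)) {M : G.Subgraph | M.IsMatching} := by
  intro M hM M' hM' h
  have hv : M.verts = M'.verts := by
    ext x
    rw [← ofSub_ne_iff hM, ← ofSub_ne_iff hM', h]
  apply SimpleGraph.Subgraph.ext hv
  funext x y
  apply propext
  rw [adj_iff_ofSub hM, adj_iff_ofSub hM', h, hv]

theorem ofSub_isPerfect {G : SimpleGraph V} {M : G.Subgraph} (hM : M.IsPerfectMatching) :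
    IsPerfect G (ofSub M) := by
  intro x
  obtain ⟨w, hw, -⟩ := hM.1 (hM.2 x)
  refine ⟨?_, ofSub_invol hM.1 x⟩
  rw [ofSub_adj hM.1 hw]
  exact M.adj_sub hw

theorem ofSub_isNearPerfect {G : SimpleGraph V} {M : G.Subgraph} (hM : M.IsMatching)
    (h2 : (M.vertsᶜ).ncard = 2) : IsNearPerfect G (ofSub M) := by
  refine ⟨ofSub_invol hM, ?_, ?_⟩
  · intro x hx
    obtain ⟨w, hw, -⟩ := hM ((ofSub_ne_iff hM x).1 hx)
    rw [ofSub_adj hM hw]
    exact M.adj_sub hw
  · obtain ⟨u, v, huv, hs⟩ := Set.ncard_eq_two.1 h2
    refine ⟨u, v, huv, fun x => ?_⟩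
    have h1 : x ∈ M.vertsᶜ ↔ x = u ∨ x = v := by
      rw [hs]
      simp
    rw [← h1, Set.mem_compl_iff, ← ofSub_ne_iff hM x, not_not]

/-- The spanning subgraph whose edges join every vertex to its partner. -/
def toSub {G : SimpleGraph V} (σ : V → V) (h : IsPerfect G σ) : G.Subgraph where
  verts := Set.univ
  Adj x y := σ x = y
  adj_sub := by
    intro x y hxy
    rw [← hxy]
    exact (h x).1
  edge_vert := fun _ => Set.mem_univ _
  symm := ⟨fun x y hxy => by
    show σ y = x
    rw [← hxy]
    exact (h x).2⟩

theorem toSub_isPerfectMatching {G : SimpleGraph V} (σ : V → V) (h : IsPerfect G σ) :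
    (toSub σ h).IsPerfectMatching := by
  rw [SimpleGraph.Subgraph.isPerfectMatching_iff]
  intro v
  exact ⟨σ v, rfl, fun y hy => (show σ v = y from hy).symm⟩

/-- In a finite simple graph without three pairwise non-adjacent vertices which has a perfect
matching, the number of near-perfect matchings (matchings which leave exactly two vertices
uncovered) is at most `n ^ 4` times the number of perfect matchings, `n` being the number of
vertices. -/
theorem result {V : Type*} [Fintype V] (G : SimpleGraph V)
    (hα : ∀ a b c : V, a ≠ b → a ≠ c → b ≠ c → G.Adj a b ∨ G.Adj a c ∨ G.Adj b c)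
    (hpm : ∃ M : G.Subgraph, M.IsPerfectMatching) :
    Set.ncard {M : G.Subgraph | M.IsMatching ∧ (M.vertsᶜ).ncard = 2}
      ≤ Fintype.card V ^ 4 * Set.ncard {M : G.Subgraph | M.IsPerfectMatching} := by
  classical
  obtain ⟨M0, hM0⟩ := hpm
  have h1 : Set.ncard {M : G.Subgraph | M.IsMatching ∧ (M.vertsᶜ).ncard = 2}
      ≤ Set.ncard {τ : V → V | IsNearPerfect G τ} := by
    apply Set.ncard_le_ncard_of_injOn ofSub
    · intro M hM
      exact ofSub_isNearPerfect hM.1 hM.2
    · exact ofSub_injOn.mono (fun M hM => hM.1)
  have h2 : Set.ncard {σ : V → V | IsPerfect G σ}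
      ≤ Set.ncard {M : G.Subgraph | M.IsPerfectMatching} := by
    apply Set.ncard_le_ncard_of_injOn
      (fun σ => if h : IsPerfect G σ then toSub σ h else ⊥)
    · intro σ hσ
      have hσ' : IsPerfect G σ := hσ
      simp only [dif_pos hσ']
      exact toSub_isPerfectMatching σ hσ'
    · intro σ hσ σ' hσ' h
      have a1 : IsPerfect G σ := hσ
      have a2 : IsPerfect G σ' := hσ'
      simp only [dif_pos a1, dif_pos a2] at h
      funext x
      have h3 : (toSub σ a1).Adj x (σ x) := rfl
      rw [h] at h3
      exact (show σ' x = σ x from h3).symm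
  calc Set.ncard {M : G.Subgraph | M.IsMatching ∧ (M.vertsᶜ).ncard = 2}
      ≤ Set.ncard {τ : V → V | IsNearPerfect G τ} := h1
    _ ≤ Fintype.card V ^ 4 * Set.ncard {σ : V → V | IsPerfect G σ} :=
        count_maps G hα ⟨ofSub M0, ofSub_isPerfect hM0⟩
    _ ≤ Fintype.card V ^ 4 * Set.ncard {M : G.Subgraph | M.IsPerfectMatching} :=
        Nat.mul_le_mul_left _ h2

end Vale.Agent.Results.P308.IndependenceTwo
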